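import Vale.Agent.P004F.St
import Vale.Agent.P004F.En.Rep
import Vale.Agent.P004Z.EF.All
import Vale.Agent.P004Z.Ar.Unf
import Vale.Agent.P004S.Gal1
import Vale.Agent.P004S.Lt

/-! # P004F (FRAME), row CRV: the curve, the bad primes and the places exist -/

set_option linter.all false

noncomputable section

namespace Vale.Agent.P004F

open NumberField Matrix
open Vale.Agent.P022 (Qb GQ IsFrob)
open Vale.Agent.P022D.W (dec)
open Vale.Agent.P022E.GW (Ov)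
open Vale.Agent.P004S (Rep Tr rb lt ex_conj pl_ex)
open P004M.TE (rep)

namespace Cr

variable {A B : ℤ} (h : 4 * A ^ 3 + 27 * B ^ 2 ≠ 0)

/-- the trace of Frobenius -/
theorem tr_al {l : ℕ} (hl : l.Prime) (hg : ¬ (l : ℤ) ∣ 2 * (4 * A ^ 3 + 27 * B ^ 2)) {g : GQ}
    (k : IsFrob l g) : (P004M.TE.mt (hq h) g).trace = P004Z.EF.al A B l := by
  have : Fact l.Prime := ⟨hl⟩
  rw [show P004Z.EF.al A B l = _ from P004M.TE.al_eq hg, (P004M.TE.frob_mt (hq h) hg k).1]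
  simp

theorem tr_rep (g : GQ) :
    (P004S.mt (rep (hq h)) g).trace = ((P004M.TE.mt (hq h) g).trace : ℤ_[2]) := by
  simp only [trace_fin_two, En.mt_rep, PadicInt.coe_add]

theorem trc {a : ℕ → ℤ} (m : {p : ℕ | p.Prime ∧ P004Z.EF.al A B p ≠ a p}.Finite) :
    En.Trc (rep (hq h)) a := by
  refine (m.union (2 * (4 * A ^ 3 + 27 * B ^ 2)).natAbs.primeFactors.finite_toSet).subset ?_
  rintro p ⟨hp, g, k, n⟩
  by_cases c : (p : ℤ) ∣ 2 * (4 * A ^ 3 + 27 * B ^ 2)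
  · exact Or.inr (Nat.mem_primeFactors.2 ⟨hp, Int.natCast_dvd.1 c,
      Int.natAbs_ne_zero.2 (mul_ne_zero two_ne_zero h)⟩)
  · refine Or.inl ⟨hp, fun e => n ?_⟩
    rw [tr_rep h, tr_al h hp c k, e, PadicInt.coe_intCast]

theorem mt_one {g : GQ} (e : rep (hq h) g = 1) : P004M.TE.mt (hq h) g = 1 := by
  ext i j
  refine Subtype.ext ?_
  rw [← En.mt_rep, P004S.mt, e, Units.val_one, one_apply, one_apply]
  split_ifs <;> rfl

theorem res {S : Finset ℕ} (hr : Rep (rep (hq h)) S) {g : GQ} (t : Tr (rep (hq h)) 1 g) :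
    (P004M.TE.mt (hq h) g).map PadicInt.toZMod = 1 := by
  rw [← hr.tr_one_iff.1 t]
  ext i j
  rw [rb, map_apply, map_apply, En.mt_rep, P004S.rd_coe]

/-- a prime which splits completely in the field of the points of order two -/
theorem aux {r : P004S.Rp} {S : Finset ℕ} (hr : Rep r S) :
    ∃ s : ℕ, s.Prime ∧ s ≠ 2 ∧ ∀ P, Ov s P → ∀ g ∈ dec P, Tr r 1 g := by
  obtain ⟨s, φ, h1, h2, ⟨Q, q1, q2, q3⟩, m⟩ := P022K.Cheb.exists_fr (hr.Kn_open 1) (one_mem _) S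
  refine ⟨s, h1, hr.ne_two h2, fun P o g hg => ?_⟩
  obtain ⟨t, -, k⟩ := ex_conj ⟨h1, q1, q2⟩ o
  have := lt.dec_le ⟨h1, q1, q2⟩ q3 (hr.Kn_open 1) m (hr.Kn_uns 1 s _ ⟨h1, q1, q2⟩ h2) (k g hg)
  simpa [mul_assoc] using hr.tr_conj this t

end Cr

/-- **row CRV** -/
theorem crv : CRV := by
  classical
  intro N G a h
  obtain ⟨ε, hn⟩ := P004Z.Ar.nf_of_rn h
  obtain ⟨A, B, w, Λ, F, x, y, hp⟩ := P004Z.EF.par N G a ε hn
  refine ⟨A, B, hp.disc, fun S₀ h0 => ?_⟩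
  obtain ⟨pl⟩ := pl_ex
  have d0 := Int.natAbs_ne_zero.2 (mul_ne_zero two_ne_zero hp.disc)
  have hS : ∀ l : ℕ, l.Prime → l ∉ (2 * (4 * A ^ 3 + 27 * B ^ 2)).natAbs.primeFactors →
      ¬ (l : ℤ) ∣ 2 * (4 * A ^ 3 + 27 * B ^ 2) := fun l hl k c =>
    k (Nat.mem_primeFactors.2 ⟨hl, Int.natCast_dvd.1 c, d0⟩)
  have h2 : 2 ∈ (2 * (4 * A ^ 3 + 27 * B ^ 2)).natAbs.primeFactors :=
    by_contra fun k => hS 2 Nat.prime_two k (dvd_mul_right _ _)
  have hp' : ∀ l ∈ (2 * (4 * A ^ 3 + 27 * B ^ 2)).natAbs.primeFactors, l.Prime :=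
    fun l => Nat.prime_of_mem_primeFactors
  generalize (2 * (4 * A ^ 3 + 27 * B ^ 2)).natAbs.primeFactors = S at hS h2 hp'
  have hr := En.rep_ok (hq hp.disc) h2 hS
  obtain ⟨s, s1, s2, s3⟩ := Cr.aux hr
  refine ⟨S, pl.P 2, hr, pl.ov 2 Nat.prime_two, fun δ ok hu => ?_⟩
  have n0 : N * δ ≠ 0 := (Nat.mul_pos h.pos (one_pos.trans ok.one)).ne'
  obtain ⟨T, hT⟩ : ∃ T : Finset ℕ, ∀ l, l ∈ T.toList ↔ l = s ∨ l ∈ S₀ ∪ S ∨
      l ∈ (N * δ).primeFactors ∨ l.Prime ∧ P004Z.EF.al A B l ≠ a l :=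
    ⟨insert s (S₀ ∪ S ∪ ((N * δ).primeFactors ∪ hp.mat.toFinset)), fun l => by
      rw [Finset.mem_toList, Finset.mem_insert, Finset.mem_union (s := S₀ ∪ S),
        Finset.mem_union (s := (N * δ).primeFactors), Set.Finite.mem_toFinset]
      rfl⟩
  have pr : ∀ l ∈ T.toList, l.Prime := fun l hl => by
    rcases (hT l).1 hl with rfl | k | k | k
    exacts [s1, (Finset.mem_union.1 k).elim (h0 l) (hp' l), Nat.prime_of_mem_primeFactors k, k.1]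
  have up : ∀ l ∈ S₀ ∪ S, l ∈ T.toList := fun l k => (hT l).2 (.inr (.inl k))
  refine ⟨⟨N, G, a, A, B, w, Λ, F, x, y, h, hp, δ, ok, T.toList, pl.P, pl.τ, T.nodup_toList,
    up 2 (Finset.mem_union_right _ h2), fun p k => pl.ov p (pr p k), fun p k => pl.gn p (pr p k),
    fun l hl k => ?_, ⟨s, (hT s).2 (.inl rfl), s2, fun g hg =>
      Cr.res hp.disc hr (s3 _ (pl.ov s s1) g hg)⟩, fun l k Q o g hg => Cr.mt_one hp.disc
        (hu _ S hr (Cr.trc hp.disc hp.mat) l o.1 k Q o.2.1 o.2.2 g hg)⟩,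
    rfl, rfl, rfl, rfl, rfl, rfl, up⟩
  have c := hS l hl fun m => k (up l (Finset.mem_union_right _ m))
  refine ⟨fun m => k ((hT l).2 (.inr (.inr (.inl (Nat.mem_primeFactors.2 ⟨hl, m, n0⟩))))),
    fun m => c (m.mul_left _), fun g hg => ?_⟩
  rw [Cr.tr_al hp.disc hl c hg]
  exact congrArg _ (by_contra fun m => k ((hT l).2 (.inr (.inr (.inr ⟨hl, m⟩)))))

end Vale.Agent.P004F
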